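import Vale.Agent.P286.H459.CstN
import Vale.Agent.P286.H710.Lam
import Vale.Agent.P286.H710.Kun

/-!
# The Künneth isomorphism for differential forms, and the constant families
-/

namespace Vale.Agent.P286.H606

open TensorProduct Vale.Agent.P286.H710 Vale.Agent.P286.H847 Vale.Agent.P286.H847.GD
  Vale.Agent.P286.H847.SGD Vale.Agent.P286.H44 Vale.Agent.P286.H697 Vale.Agent.P286.St
  Vale.Agent.P286.H295 Vale.Agent.P286.H459 Vale.Agent.P286.Gen CategoryTheory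

noncomputable section

/-- A bijective morphism, surjective in every degree, is a quasi-isomorphism. -/
theorem qis_of_bij {M N : GD} (u : Hom M N) (hi : Function.Injective u.f)
    (hs : ∀ m : ℤ, ∀ y ∈ N.gr m, ∃ x ∈ M.gr m, u.f x = y) : Qis u := by
  intro m
  refine ⟨?_, ?_⟩
  · rintro x _ _ ⟨y, hy, e⟩
    obtain ⟨x', hx', e'⟩ := hs (m - 1) y hy
    exact ⟨x', hx', hi (by rw [u.comm, e', e])⟩
  · intro y hy hd
    obtain ⟨x, hx, e⟩ := hs m y hy
    refine ⟨x, hx, hi (by rw [u.comm, e, hd, map_zero]), 0, zero_mem _, ?_⟩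
    rw [map_zero, e, sub_self]

/-- The sum of the homogeneous parts of a tensor product. -/
theorem tens_sup (E : SGD) (F : GD) (hE : ⨆ m, E.gr m = ⊤) (hF : ⨆ m, F.gr m = ⊤) :
    ⨆ m, (tens E F).gr m = ⊤ := by
  rw [eq_top_iff]
  intro z _
  change E.V ⊗[ℂ] F.V at z
  induction z using TensorProduct.induction_on with
  | zero => exact zero_mem _
  | tmul x y =>
    induction x using Prj.ind (M := E.toGD) hE with
    | zero => rw [zero_tmul]; exact zero_mem _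
    | hom i x hx =>
      induction y using Prj.ind (M := F) hF with
      | zero => rw [tmul_zero]; exact zero_mem _
      | hom j y hy => exact Submodule.mem_iSup_of_mem (i + j) (tmul_mem rfl hx hy)
      | add y y' hy hy' => rw [tmul_add]; exact add_mem (hy trivial) (hy' trivial)
    | add x x' hx hx' => rw [add_tmul]; exact add_mem (hx trivial) (hx' trivial)
  | add a b ha hb => exact add_mem (ha trivial) (hb trivial)

variable (A B : Type) [CommRing A] [Algebra ℂ A] [CommRing B] [Algebra ℂ B]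

/-- The product map on the forms. -/
def kO : Om ℂ B ⊗[ℂ] Om ℂ A →ₗ[ℂ] Om ℂ (A ⊗[ℂ] B) :=
  TensorProduct.lift
    { toFun := fun w =>
        { toFun := fun y => Om.pb (iB ℂ A B) w * Om.pb (iA ℂ A B) y
          map_add' := fun y y' => by rw [map_add, mul_add]
          map_smul' := fun c y => by rw [Om.pb_csmul, RingHom.id_apply, mul_smul_comm] }
      map_add' := fun w w' => by
        ext y
        change Om.pb (iB ℂ A B) (w + w') * Om.pb (iA ℂ A B) y =
          Om.pb (iB ℂ A B) w * Om.pb (iA ℂ A B) y + Om.pb (iB ℂ A B) w' * Om.pb (iA ℂ A B) y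
        rw [map_add, add_mul]
      map_smul' := fun c w => by
        ext y
        change Om.pb (iB ℂ A B) (c • w) * Om.pb (iA ℂ A B) y =
          c • (Om.pb (iB ℂ A B) w * Om.pb (iA ℂ A B) y)
        rw [Om.pb_csmul, smul_mul_assoc] }

theorem kO_tmul (w : Om ℂ B) (y : Om ℂ A) :
    kO A B (w ⊗ₜ[ℂ] y) = Om.pb (iB ℂ A B) w * Om.pb (iA ℂ A B) y := rfl

/-- The ring is the base change of the ring. -/
theorem isBC_ring : IsBC ℂ A B (M := A) (N := A ⊗[ℂ] B) (iA ℂ A B : A →+ A ⊗[ℂ] B) := by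
  intro Q _ _ u hu
  refine ⟨LinearMap.toSpanSingleton (A ⊗[ℂ] B) Q (u 1), fun m => ?_, fun ν hν => ?_⟩
  · change iA ℂ A B m • u 1 = u m
    rw [← hu, smul_eq_mul, mul_one]
  · apply LinearMap.ext
    intro x
    change ν x = x • u 1
    have h1 : u 1 = ν 1 := by
      rw [← hν 1]
      change ν (iA ℂ A B 1) = ν 1
      rw [map_one]
    rw [h1, ← map_smul, smul_eq_mul, mul_one]

/-- The forms with coefficients in the ring. -/
def rO : Om ℂ A ≃ₗ[ℂ] DR ℂ A A := (TensorProduct.rid A (Om ℂ A)).symm.restrictScalars ℂ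

theorem rO_apply (y : Om ℂ A) : rO A y = y ⊗ₜ[A] (1 : A) := rfl

theorem iA_smul' (a m : A) : (iA ℂ A B : A →+ A ⊗[ℂ] B) (a • m) =
    iA ℂ A B a • (iA ℂ A B : A →+ A ⊗[ℂ] B) m := map_mul (iA ℂ A B) a m

theorem rO_kO (z : Om ℂ B ⊗[ℂ] Om ℂ A) : rO (A ⊗[ℂ] B) (kO A B z) =
    KV.kap (iA ℂ A B : A →+ A ⊗[ℂ] B) (iA_smul' A B)
      ((LinearEquiv.lTensor (Om ℂ B) (rO A)) z : Om ℂ B ⊗[ℂ] DR ℂ A A) := by
  induction z using TensorProduct.induction_on with
  | zero => simp only [map_zero]; exact (map_zero _).symm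
  | tmul w y =>
    rw [kO_tmul, LinearEquiv.lTensor_tmul, rO_apply, rO_apply]
    change _ = Om.pb (iB ℂ A B) w • pbT (iA ℂ A B) (iA ℂ A B : A →+ A ⊗[ℂ] B) (iA_smul' A B)
      (y ⊗ₜ[A] (1 : A))
    rw [pbT_tmul, smul_tmul', smul_eq_mul]
    congr 1
  | add x y hx hy =>
    rw [map_add, map_add, hx, hy, map_add]
    exact (map_add (KV.kap (iA ℂ A B : A →+ A ⊗[ℂ] B) (iA_smul' A B)) _ _).symm

/-- The product map is bijective. -/
theorem kO_bij : Function.Bijective (kO A B) := by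
  have h : Function.Bijective fun z => rO (A ⊗[ℂ] B) (kO A B z) := by
    have e : (fun z => rO (A ⊗[ℂ] B) (kO A B z)) =
        (KV.kap (iA ℂ A B : A →+ A ⊗[ℂ] B) (iA_smul' A B)) ∘
          (LinearEquiv.lTensor (Om ℂ B) (rO A)) := funext fun z => rO_kO A B z
    rw [e]
    exact (KV.kap_bijective _ _ (isBC_ring A B)).comp (LinearEquiv.bijective _)
  exact (Function.Bijective.of_comp_iff' (rO (A ⊗[ℂ] B)).bijective (kO A B)).1 h

/-- The product of two homogeneous forms. -/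
theorem omg_mul' {A : Type} [CommRing A] [Algebra ℂ A] {i j m : ℤ} (h : i + j = m) {w ω : Om ℂ A}
    (hw : w ∈ omg A i) (hω : ω ∈ omg A j) : w * ω ∈ omg A m := by
  rcases hw with rfl | ⟨p, rfl, hw⟩
  · rw [zero_mul]; exact zero_mem _
  · have := omg_mul hw hω
    rwa [add_comm, h] at this

theorem kO_mem {m : ℤ} {z : Om ℂ B ⊗[ℂ] Om ℂ A} (hz : z ∈ tgr (OmGD B) (OmGD A) m) :
    kO A B z ∈ omg (A ⊗[ℂ] B) m := by
  have h : tgr (OmGD B) (OmGD A) m ≤ (omg (A ⊗[ℂ] B) m).comap (kO A B) :=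
    tgr_le fun i j w y hij hw hy =>
      omg_mul' hij ((OmGD.pb (iB ℂ A B)).deg i w hw) ((OmGD.pb (iA ℂ A B)).deg j y hy)
  exact h hz

/-- The product map is surjective in every degree. -/
theorem kO_surj (m : ℤ) (ω : Om ℂ (A ⊗[ℂ] B)) (hω : ω ∈ omg (A ⊗[ℂ] B) m) :
    ∃ z ∈ tgr (OmGD B) (OmGD A) m, kO A B z = ω := by
  have key : ∀ z : Om ℂ B ⊗[ℂ] Om ℂ A, ∃ z' ∈ tgr (OmGD B) (OmGD A) m,
      kO A B z' = (OmPrj (A ⊗[ℂ] B)).P m (kO A B z) := by
    intro z
    induction z using Prj.ind (M := tens (OmS B) (OmGD A))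
      (tens_sup (OmS B) (OmGD A) OmS_sup OmS_sup) with
    | zero => exact ⟨0, zero_mem _, by rw [map_zero, map_zero]⟩
    | hom i z hz =>
      by_cases him : i = m
      · subst him
        exact ⟨z, hz, ((OmPrj (A ⊗[ℂ] B)).eq i _ (kO_mem A B hz)).symm⟩
      · exact ⟨0, zero_mem _, by
          rw [map_zero, (OmPrj (A ⊗[ℂ] B)).ne i m him _ (kO_mem A B hz)]⟩
    | add x y hx hy =>
      obtain ⟨x', hx', ex⟩ := hx
      obtain ⟨y', hy', ey⟩ := hy
      exact ⟨x' + y', add_mem hx' hy', by rw [map_add, ex, ey, map_add, map_add]⟩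
  obtain ⟨z, rfl⟩ := (kO_bij A B).2 ω
  obtain ⟨z', hz', e⟩ := key z
  exact ⟨z', hz', e.trans ((OmPrj (A ⊗[ℂ] B)).eq m _ hω)⟩

section Cst

variable (N : GD)

/-- The product map with coefficients. -/
def kN : Om ℂ B ⊗[ℂ] (Om ℂ A ⊗[ℂ] N.V) →ₗ[ℂ] Om ℂ (A ⊗[ℂ] B) ⊗[ℂ] N.V :=
  ((kO A B).rTensor N.V) ∘ₗ (TensorProduct.assoc ℂ (Om ℂ B) (Om ℂ A) N.V).symm.toLinearMap

theorem kN_tmul (θ : Om ℂ B) (ω : Om ℂ A) (x : N.V) :
    kN A B N (θ ⊗ₜ[ℂ] (ω ⊗ₜ[ℂ] x)) = (Om.pb (iB ℂ A B) θ * Om.pb (iA ℂ A B) ω) ⊗ₜ[ℂ] x := rfl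

theorem kN_bij : Function.Bijective (kN A B N) := by
  have h : Function.Bijective ((kO A B).rTensor N.V) :=
    (LinearEquiv.rTensor N.V (LinearEquiv.ofBijective (kO A B) (kO_bij A B))).bijective
  exact h.comp (TensorProduct.assoc ℂ (Om ℂ B) (Om ℂ A) N.V).symm.bijective

/-- The product map with coefficients is surjective in every degree. -/
theorem kN_surj (m : ℤ) (ζ : Om ℂ (A ⊗[ℂ] B) ⊗[ℂ] N.V) (hζ : ζ ∈ tgr (OmGD (A ⊗[ℂ] B)) N m) :
    ∃ z ∈ tgr (OmGD B) (tens (OmS A) N) m, kN A B N z = ζ := by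
  have h : tgr (OmGD (A ⊗[ℂ] B)) N m ≤
      (tgr (OmGD B) (tens (OmS A) N) m).map (kN A B N) := by
    refine tgr_le fun i j ω x hij hω hx => ?_
    obtain ⟨z, hz, rfl⟩ := kO_surj A B i ω hω
    refine ⟨TensorProduct.assoc ℂ (Om ℂ B) (Om ℂ A) N.V (z ⊗ₜ[ℂ] x), ?_, ?_⟩
    · have h2 : tgr (OmGD B) (OmGD A) i ≤ (tgr (OmGD B) (tens (OmS A) N) m).comap
          ((TensorProduct.assoc ℂ (Om ℂ B) (Om ℂ A) N.V).toLinearMap ∘ₗ
            (TensorProduct.mk ℂ (Om ℂ B ⊗[ℂ] Om ℂ A) N.V).flip x) :=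
        tgr_le fun i' j' w y hij' hw hy => by
          change w ⊗ₜ[ℂ] (y ⊗ₜ[ℂ] x) ∈ tgr (OmGD B) (tens (OmS A) N) m
          exact tmul_mem (E := OmGD B) (F := tens (OmS A) N) (i := i') (j := j' + j)
            (by rw [← hij, ← hij']; ring) hw (tmul_mem (E := OmGD A) rfl hy hx)
      exact h2 hz
    · change (kO A B).rTensor N.V ((TensorProduct.assoc ℂ (Om ℂ B) (Om ℂ A) N.V).symm
        (TensorProduct.assoc ℂ (Om ℂ B) (Om ℂ A) N.V (z ⊗ₜ[ℂ] x))) = _
      rw [LinearEquiv.symm_apply_apply]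
      rfl
  obtain ⟨z, hz, e⟩ := h hζ
  exact ⟨z, hz, e⟩

end Cst

section Kun

variable {m : ℕ} {Γ : Gps m} [hs : Algebra.Smooth ℂ (Of Γ)] (hT : H389.Str (BGT Γ)) (N : GD)

theorem kun_cst (X : Gen.BGObj Γ) (z : Om ℂ (Of Γ) ⊗[ℂ] (Om ℂ X.A.R ⊗[ℂ] N.V)) :
    (kun (cst hT N) X).f z = kN X.A.R (Of Γ) N z := by
  induction z using TensorProduct.induction_on with
  | zero => exact (map_zero _).trans (map_zero _).symm
  | tmul θ y =>
    induction y using TensorProduct.induction_on with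
    | zero =>
      rw [tmul_zero]
      exact (map_zero _).trans (map_zero _).symm
    | tmul ω x => rfl
    | add y y' hy hy' =>
      rw [tmul_add]
      refine (map_add _ _ _).trans ?_
      rw [map_add, hy, hy']
      rfl
  | add y y' hy hy' =>
    refine (map_add _ _ _).trans ?_
    rw [map_add, hy, hy']
    rfl

/-- **The constant families.** -/
theorem KUN_cst : KUN (cst hT N) := by
  intro X
  refine qis_of_bij _ ?_ ?_
  · intro x y h
    have h' : kN X.A.R (Of Γ) N x = kN X.A.R (Of Γ) N y := by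
      rw [← kun_cst hT N X x, ← kun_cst hT N X y]
      exact h
    exact (kN_bij X.A.R (Of Γ) N).1 h'
  · intro i y hy
    obtain ⟨z, hz, e⟩ := kN_surj X.A.R (Of Γ) N i y hy
    exact ⟨z, hz, (kun_cst hT N X z).trans e⟩

end Kun

end

end Vale.Agent.P286.H606
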