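import Vale.Agent.P286.H549.Tw
import Vale.Agent.P286.H64.LM

/-!
# Twisted tensor products and exponentials
-/

namespace Vale.Agent.P286.H606

open TensorProduct Vale.Agent.P286.H847 Vale.Agent.P286.H549 Vale.Agent.P286.H64
  Vale.Agent.P286.H847.SGD

noncomputable section

variable {n : ℕ} {W : SGD} (Y : LM.Yop n W) (N : LM n)

/-- The operators of a module over the exterior algebra. -/
theorem EE_lm : EE N.toGD N.e where
  ee := N.e_e
  de i x := N.d_e i x

theorem yE_eq (i : Fin n) : LM.yE Y N i = tT W Y.y N.e i := rfl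

/-- Odd operators `c i` of degree `4 i + 3` with `y i = d c i + c i d`. -/
structure Cop {n : ℕ} {W : SGD} (Y : LM.Yop n W) where
  c : Fin n → W.V →ₗ[ℂ] W.V
  cy : CY W c Y.y
  c_gr : ∀ (i : Fin n) (m : ℤ) (x : W.V), x ∈ W.gr m → c i x ∈ W.gr (m + (4 * (i : ℤ) + 3))

variable {Y}

theorem yE_gr (i : Fin n) (m : ℤ) (z : W.V ⊗[ℂ] N.V) (hz : z ∈ tgr W.toGD N.toGD m) :
    tT W Y.y N.e i z ∈ tgr W.toGD N.toGD (m + 1) := by
  have h := tT_mem (W := W) (N := N.toGD) (c := Y.y) (e := N.e) (i := i)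
    (p := 4 * (i : ℤ) + 4) (q := -(4 * (i : ℤ) + 3)) (Y.y_gr i)
    (fun m x hx => by rw [← sub_eq_add_neg]; exact N.e_gr i m x hx) m z hz
  rwa [show m + (4 * (i : ℤ) + 4 + -(4 * (i : ℤ) + 3)) = m + 1 by ring] at h

theorem cT_gr (C : Cop Y) (i : Fin n) (m : ℤ) (z : W.V ⊗[ℂ] N.V)
    (hz : z ∈ tgr W.toGD N.toGD m) : tT W C.c N.e i z ∈ tgr W.toGD N.toGD m := by
  have h := tT_mem (W := W) (N := N.toGD) (c := C.c) (e := N.e) (i := i)
    (p := 4 * (i : ℤ) + 3) (q := -(4 * (i : ℤ) + 3)) (C.c_gr i)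
    (fun m x hx => by rw [← sub_eq_add_neg]; exact N.e_gr i m x hx) m z hz
  rwa [show m + (4 * (i : ℤ) + 3 + -(4 * (i : ℤ) + 3)) = m by ring] at h

/-- The twisted tensor product is a twist in the sense of `twG`. -/
theorem tw_eq (C : Cop Y) : LM.tw Y N =
    twG (tens W N.toGD) (C.cy.tw (EE_lm N)) (fun i m v hv => yE_gr N i m v hv) := rfl

/-- The exponential, from the tensor product to the twisted tensor product. -/
def toTwL (C : Cop Y) : GD.Hom (tens W N.toGD) (LM.tw Y N) :=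
  toTw (tens W N.toGD) (C.cy.tw (EE_lm N)) (fun i m v hv => yE_gr N i m v hv)
    (fun i m v hv => cT_gr N C i m v hv)

theorem toTwL_f (C : Cop Y) (z : W.V ⊗[ℂ] N.V) : (toTwL N C).f z = eT (tT W C.c N.e) z := rfl

theorem qis_toTwL (C : Cop Y) : GD.Qis (toTwL N C) :=
  qis_toTw (tens W N.toGD) (C.cy.tw (EE_lm N)) (fun i m v hv => yE_gr N i m v hv)
    (fun i m v hv => cT_gr N C i m v hv)

/-- The inverse. -/
def ofTwL (C : Cop Y) : GD.Hom (LM.tw Y N) (tens W N.toGD) :=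
  ofTw (tens W N.toGD) (C.cy.tw (EE_lm N)) (fun i m v hv => yE_gr N i m v hv)
    (fun i m v hv => cT_gr N C i m v hv)

theorem qis_ofTwL (C : Cop Y) : GD.Qis (ofTwL N C) :=
  qis_ofTw (tens W N.toGD) (C.cy.tw (EE_lm N)) (fun i m v hv => yE_gr N i m v hv)
    (fun i m v hv => cT_gr N C i m v hv)

end

end Vale.Agent.P286.H606
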